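import Vale.Agent.P057EN.Ref
import Vale.Agent.P057EN.Prd
import Vale.Agent.P057PC.Del

/-!
Reflection of a cube system in a vertex; insertion of all faces followed by two reflections.
-/

set_option linter.all false

open Matrix Finset
open Vale.Agent.P267.H775 Vale.Agent.P057G Vale.Agent.P057PC Vale.Agent.P057TP Vale.Agent.P057ST
open Vale.Agent.P057GH Vale.Agent.P057DP Vale.Agent.P057RH Vale.Agent.P057EN

namespace Vale.Agent.P057SM

noncomputable section

theorem exists_mat {L : Type} [Fintype L] [DecidableEq L] (f : (L → ℤ) → L → ℤ)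
    (g : (L → ℝ) →ₗ[ℝ] L → ℝ) (h : ∀ z, toR (f z) = g (toR z)) :
    ∃ S : Matrix L L ℤ, (∀ z, S *ᵥ z = f z) ∧ ∀ x, mR S *ᵥ x = g x := by
  have h1 : mR (Matrix.of fun i j => f (Pi.single j 1) i) = LinearMap.toMatrix' g := by
    ext i j
    have h2 : toR (Pi.single j 1 : L → ℤ) = Pi.single j 1 := funext fun k => by
      simp [Pi.single_apply]
    have := congrFun (h (Pi.single j 1)) i
    rw [h2] at this
    simpa [mR] using this
  have h2 : ∀ x, mR (Matrix.of fun i j => f (Pi.single j 1) i) *ᵥ x = g x := fun x => by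
    rw [h1, ← toLin'_apply, toLin'_toMatrix']
  refine ⟨_, fun z => funext fun i => ?_, h2⟩
  have := congrFun ((toR_mulVec _ z).trans ((h2 _).trans (h z).symm)) i
  simp only [toR_apply] at this
  exact_mod_cast this

theorem ok_fsb' {R ι κ W W' S S' : Type} [CommRing R] {Ψ : Fam R ι κ W S} {lv : ι → ℕ}
    {lw : κ → ℕ} (h : Ψ.Ok lv lw) {g : W → Lam R W'} (h1 : ∀ w, (g w).IsHomogeneous 1)
    (k : S' → S) : (fsb Ψ g k).Ok lv lw := by
  refine ⟨fun o a β μ hμ => ?_, fun s a => ?_⟩
  · simp only [fsb, MvPolynomial.coeff_map] at hμ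
    have h0 : MvPolynomial.coeff β (Ψ.fn (o.map k) a) ≠ 0 := fun e => hμ (by simp [e])
    obtain ⟨μ0, h3⟩ := MvPolynomial.ne_zero_iff.1 h0
    have h4 : (MvPolynomial.coeff β (Ψ.fn (o.map k) a)).IsHomogeneous μ0.degree :=
      fun μ1 h5 => by
        have := (h.hom _ _ _ _ h5).trans (h.hom _ _ _ _ h3).symm
        change (Finsupp.weight fun _ => 1) μ1 = _
        rw [← Finsupp.degree_eq_weight_one]; omega
    have h5 := h4.aeval (fun x : Option W => x.elim (MvPolynomial.X none : Lam R W') g) (n := 1)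
      (fun x => by cases x; exacts [MvPolynomial.isHomogeneous_X _ _, h1 _]) hμ
    change (Finsupp.weight fun _ => 1) μ = _ at h5
    rw [← Finsupp.degree_eq_weight_one, one_mul] at h5
    rw [h5]
    exact h.hom _ _ _ _ h3
  · have e : (kt : Lam R W' →+* _).comp (sb g) = (sb fun w => kt (g w)).comp kt := by
      refine MvPolynomial.ringHom_ext (fun r => by simp [P057GH.kt_C, sb_C]) fun x => ?_
      cases x <;> simp [P057GH.kt_none, P057GH.kt_some, sb_none, sb_some]
    simp only [fsb, MvPolynomial.map_map, e]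
    rw [← MvPolynomial.map_map, ← MvPolynomial.map_map, Option.map_some, h.pure]
    rfl

variable {T : Tow} {V K : Type} [DecidableEq V] {m s : ℕ} {N : ℝ}

/-- the symmetric difference with a vertex -/
def fl (h : V) (B : Finset V) : Finset V := if h ∈ B then B.erase h else insert h B

theorem mem_fl {h v : V} {B : Finset V} : v ∈ fl h B ↔ if v = h then h ∉ B else v ∈ B := by
  unfold fl
  by_cases a : v = h <;> by_cases b : h ∈ B <;> simp [a, b]

theorem fl_fl (h : V) (B : Finset V) : fl h (fl h B) = B := by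
  ext v
  by_cases a : v = h <;> simp [mem_fl, a]

theorem fl_comm (h h' : V) (B : Finset V) : fl h (fl h' B) = fl h' (fl h B) := by
  by_cases e : h = h'
  · rw [e]
  · ext v
    by_cases a : v = h <;> by_cases b : v = h' <;> simp_all [mem_fl, eq_comm]

/-- the reflected system -/
def rz (Z : Sys T V Unit) (h : V) : Sys T V Unit :=
  ⟨fsb Z.fam (fun v => if v = h then MvPolynomial.X none - MvPolynomial.X (some v)
    else MvPolynomial.X (some v)) id, Z.off⟩

theorem ok_rz {Z : Sys T V Unit} (hZ : Z.Ok) (h : V) : (rz Z h).Ok :=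
  ⟨ok_fsb' hZ.fam (fun v => by
      split_ifs
      exacts [(MvPolynomial.isHomogeneous_X _ _).sub (MvPolynomial.isHomogeneous_X _ _),
        MvPolynomial.isHomogeneous_X _ _]) id,
    fun a => (top_fsb _ (fun v => by split_ifs <;> simp) id a).trans (hZ.top a)⟩

theorem at_rz (Z : Sys T V Unit) (h : V) (o : Option Unit) (A : Finset V) (a : T.ι) :
    (rz Z h).fam.at' o A a = Z.fam.at' o (fl h A) a := by
  refine (at_fsb Z.fam id o (B := fl h A) (fun v => ?_) a).trans (by rw [Option.map_id_apply])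
  by_cases e : v = h <;> by_cases k : v ∈ A <;> simp_all [mem_fl, evA_none, evA_some]

variable [Fintype V]

/-- the labels of the full cube -/
abbrev LI (T : Tow) (V : Type) (m : ℕ) : Type := Lb T (id : V → V) Unit m

theorem bs_u {C : Type} {cl : V → C} (l : Lb T cl Unit m) : l.bs = none ∨ l.bs = some () := by
  cases l.bs <;> simp

/-- the reflection of the labels -/
def rl [AddCommGroup K] (h : V) (x : LI T V m → K) (l : LI T V m) : K :=
  if h ∈ l.fc then -x l else x l + tot x () l.cd (insert h l.fc)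

theorem tot_rl [AddCommGroup K] (h : V) (x : LI T V m → K) (a : T.ι) (A : Finset V) :
    tot (rl h x) () a A =
      if h ∈ A then -tot x () a A else tot x () a A + tot x () a (insert h A) := by
  by_cases k : T.lv a < m
  · by_cases k2 : A.card ≤ T.lv a
    · obtain ⟨l, rfl, rfl, hl⟩ := exists_lab (T := T) (cl := id) (m := m) () k (Set.injOn_id _) k2
      rw [tot_lab _ hl, tot_lab _ hl]; rfl
    · rw [not_le] at k2
      simp [tot_big _ _ k2, tot_big _ _ (k2.trans_le (card_le_card (subset_insert h A)))]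
  · simp [tot_high _ _ _ (not_lt.1 k)]

theorem pt_rl [AddCommGroup K] (h : V) (x : LI T V m → K) (B : Finset V) :
    pt (rl h x) (some ()) B = pt x (some ()) (fl h B) := by
  funext a
  have e : ∀ B : Finset V, h ∉ B → ∑ A ∈ B.powerset, tot (rl h x) () a A =
      ∑ A ∈ B.powerset, tot x () a A + ∑ A ∈ B.powerset, tot x () a (insert h A) := fun B k => by
    rw [← sum_add_distrib]
    exact sum_congr rfl fun A hA => by rw [tot_rl, if_neg fun n => k (mem_powerset.1 hA n)]
  rw [pt_tot, pt_tot, fl]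
  split_ifs with k
  · conv_lhs => rw [← insert_erase k]
    rw [sum_powerset_insert (notMem_erase h B), e _ (notMem_erase h B)]
    simp only [tot_rl, mem_insert_self, if_true, sum_neg_distrib, add_neg_cancel_right]
  · rw [sum_powerset_insert k, e B k]

theorem rl_rl [AddCommGroup K] (h : V) (x : LI T V m → K) : rl h (rl h x) = x := by
  funext l
  rw [rl, tot_rl, rl]
  split_ifs <;> simp_all

theorem rl_dlt [CommRing K] (h : V) (x : LI T V m → K) (l : LI T V m) :
    rl h x l = dlt (fun B => pt x (some ()) (fl h B) l.cd) l.fc := by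
  simp only [← pt_rl, dlt_tot, tot_lab _ (bs_u l)]

theorem rl_comm [CommRing K] (h h' : V) (x : LI T V m → K) : rl h (rl h' x) = rl h' (rl h x) := by
  funext l
  simp only [rl_dlt h (rl h' x), rl_dlt h' (rl h x), pt_rl, fl_comm h]

theorem toR_rl (h : V) (z : LI T V m → ℤ) : toR (rl h z) = rl h (toR z) := by
  funext l
  simp only [toR_apply, rl, ← tot_cast]
  split_ifs <;> simp

theorem pr_rl {Z : Sys T V Unit} (hZ : Z.Ok) (h : V) (x : LI T V m → ℝ) :
    Z.pr id m (rl h x) = rl h ((rz Z h).pr id m x) := funext fun l => by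
  rw [rl_dlt]
  exact pr_map hZ (ok_rz hZ h) (bs_u l) (fl h) (fun _ _ => Set.injOn_id _)
    (fun B _ => pt_rl h x B) fun B _ => by rw [at_rz, fl_fl]

/-- the reflection as a linear map -/
def rL (h : V) : (LI T V m → ℝ) →ₗ[ℝ] LI T V m → ℝ where
  toFun := rl h
  map_add' x y := funext fun l => by
    have e : ∀ a A, tot (x + y) () a A = tot x () a A + tot y () a A := fun a A => by
      simp only [tot, ← sum_add_distrib]
      exact sum_congr rfl fun k _ => by split_ifs; exacts [rfl, (add_zero _).symm]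
    simp only [rl, e, Pi.add_apply]
    split_ifs <;> ring
  map_smul' c x := funext fun l => by
    simp only [rl, tot, Pi.smul_apply, smul_eq_mul, RingHom.id_apply, mul_ite, mul_add, mul_sum,
      mul_neg, mul_zero]

theorem qq_tot (hT : T.Ok s N) (v : LI T V m → ℝ) :
    qq (Gam T id Unit m) v = ∑ A, qq T.G fun a => tot v () a A := by
  classical
  refine (qq_face T.G Lb.cd Lb.fc (fun l l' => ?_) v).trans ?_
  · simp only [Gam, of_apply]
    by_cases e : T.lv l.cd = T.lv l'.cd
    · by_cases k : l.fc = l'.fc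
      · rw [if_pos k, if_pos ⟨k, bs_eq (bs_u l) (bs_u l') e (by rw [k])⟩]
      · rw [if_neg k, if_neg fun n => k n.1]
    · simp only [hT.blk _ _ e, ite_self]
  · refine sum_congr rfl fun A _ => congrArg _ (funext fun a => sum_congr rfl fun l _ => ?_)
    simp only [bs_u l, and_true]

theorem qq_rl (hT : T.Ok s N) (h : V) (v : LI T V m → ℝ) :
    qq (Gam T id Unit m) (rl h v) ≤ 4 * qq (Gam T id Unit m) v := by
  have e : (∑ A, qq T.G fun a => tot v () a (fl h A)) = ∑ A, qq T.G fun a => tot v () a A :=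
    Equiv.sum_comp (Function.Involutive.toPerm (fl h) (fl_fl h))
      fun A => qq T.G fun a => tot v () a A
  rw [qq_tot hT, qq_tot hT, show (4 : ℝ) = 2 + 2 by norm_num, add_mul]
  nth_rw 2 [← e]
  rw [mul_sum, mul_sum, ← sum_add_distrib]
  refine sum_le_sum fun A _ => ?_
  simp only [tot_rl, fl]
  split_ifs
  · have := qq_nonneg hT.pd.posSemidef fun a => tot v () a A
    have := qq_nonneg hT.pd.posSemidef fun a => tot v () a (A.erase h)
    have := qq_neg T.G fun a => tot v () a A
    change qq T.G (-fun a => tot v () a A) ≤ _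
    linarith
  · exact qq_add2 hT.pd.posSemidef _ _

theorem Ex_rl (hT : T.Ok s N) {Z : Sys T V Unit} (hZ : Z.Ok) (h : V)
    {B : Matrix (LI T V m) (LI T V m) ℝ} (hB : B.PosDef) {κ : ℝ} (hκ : 0 ≤ κ)
    (hle : ∀ v, qq B v ≤ κ * qq (Gam T id Unit m) v) (f : (LI T V m → ℤ) → ℂ) :
    ∃ B' : Matrix (LI T V m) (LI T V m) ℝ, B'.PosDef ∧
      (∀ v, qq B' v ≤ κ * 4 * qq (Gam T id Unit m) v) ∧ Ex B (fun z => Z.pr id m (toR z)) f =
        Ex B' (fun z => (rz Z h).pr id m (toR z)) fun z => f (rl h z) := by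
  obtain ⟨S, h1, h2⟩ := exists_mat (rl h) (rL (T := T) (m := m) h) (toR_rl h)
  have h3 : S * S = 1 := by
    ext i j
    have := congrFun (mulVec_mulVec (Pi.single j 1) S S) i
    rw [h1, h1, rl_rl] at this
    simpa [Pi.single_apply, one_apply] using this.symm
  refine ⟨_, posDef_unimod h3 hB, fun v => ?_, ?_⟩
  · rw [qq_conj, h2, mul_assoc]
    exact (hle _).trans (mul_le_mul_of_nonneg_left (qq_rl hT h v) hκ)
  · rw [← Ex_unimod h3 B (p := fun z => (rz Z h).pr id m (toR z))
      (fun z => by rw [h1, h2, toR_rl, pr_rl hZ]; rfl) f]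
    simp only [h1]

/-- insertion of all labels -/
theorem Ev_ins (hT : T.Ok s N) {C : Type} {cl : V → C} {Z : Sys T V Unit} (hZ : Z.Ok)
    {q : Finset (Lb T cl Unit m)} (hq : Cq q) {F : (Lb T cl Unit m → ℤ) → ℂ} {D η : ℝ}
    (hF : ∀ z, ‖F z‖ ≤ D) (dF : Dp q F)
    (H : ∀ B : Matrix _ _ ℝ, B.PosDef → (∀ v, qq B v ≤ 3 / 2 * qq (Gam T cl Unit m) v) →
      ‖Ex B (fun z => Z.pr cl m (toR z)) F‖ ≤ η) :
    ‖Ev (cub Z cl m (fun _ _ => 1) 0) q F‖ ≤ η := by
  classical
  have hG := pd_Gam hT.pd cl Unit m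
  let S : Matrix q (Lb T cl Unit m) ℤ := (1 : Matrix _ _ ℤ).submatrix Subtype.val id
  have h1 : ∀ z : _ → ℤ, S *ᵥ z = fun k : q => z k := fun z => funext fun k => by
    simp [S, mulVec, dotProduct, one_apply]
  have h2 : ∀ z : _ → ℝ, mR S *ᵥ z = fun k : q => z k := fun z => funext fun k => by
    simp [S, mR, mulVec, dotProduct, one_apply]
  have := Ex_transfer' (tri_pr hT hZ) (hG.smul (by norm_num : (0 : ℝ) < 3 / 2)) Subtype.val S
    (fun k k' => by simp only [S, submatrix_apply, id, one_apply, Subtype.val_inj])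
    (fun k l e => by
      have : k.1 = l := by_contra fun n => e (by simp [S, one_apply, n])
      rw [this])
    (p' := pq (cub Z cl m (fun _ _ => 1) 0) q)
    (fun z => by
      rw [h1, h2]
      exact funext fun k => (add_zero _).trans (pz_eq hT hZ hq (fun _ => rfl) k))
    (posDef_blk (pd_sG (a := fun _ _ => 1) hT.pd fun _ _ => one_pos) q)
    (by norm_num : (1 : ℝ) < 3 / 2)
    (fun v => by
      rw [h2, qq_smul_mat, qq_blk_const, one_mul]
      refine mul_le_mul_of_nonneg_left (qq_emb hG Subtype.val_injective (fun _ _ => rfl)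
        (ort_Gam ?_) v) (by norm_num)
      rintro l l' a b ⟨k, rfl⟩
      exact ⟨⟨l', hq _ k.2 l' a.ge (Or.inr b.symm)⟩, rfl⟩)
    (f := fun x => F (put q x 0)) (fun _ => hF _) (a := 0) (η := η) fun B hB hle => by
      have e : (fun z => F (put q (S *ᵥ z) 0)) = F := funext fun z =>
        dF _ _ fun i hi => by rw [put_pos _ _ hi, h1]
      rw [sub_zero, e]
      exact H B hB fun v => by simpa only [qq_smul_mat] using hle v
  rw [Ev_eq_Ex]
  rwa [sub_zero] at this

/-- insertion, two reflections and a mixture -/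
theorem two_refl (hT : T.Ok s N) {Z : Sys T V Unit} (hZ : Z.Ok) (h h' : V)
    {q : Finset (LI T V m)} (hq : Cq q) {F : (LI T V m → ℤ) → ℂ} {D η : ℝ}
    (hF : ∀ z, ‖F z‖ ≤ D) (dF : Dp q F)
    (H : ∀ x₀, ‖Ev (cub (rz (rz Z h) h') id m (fun _ _ => 25) x₀) univ
      fun z => F (rl h (rl h' z))‖ ≤ η) : ‖Ev (cub Z id m (fun _ _ => 1) 0) q F‖ ≤ η := by
  refine Ev_ins hT hZ hq hF dF fun B hB hle => ?_
  obtain ⟨B1, a1, a2, a3⟩ := Ex_rl hT hZ h hB (by norm_num) hle F
  obtain ⟨B2, b1, b2, b3⟩ := Ex_rl hT (ok_rz hZ h) h' a1 (by norm_num) a2 fun z => F (rl h z)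
  rw [a3, b3]
  have hG := pd_Gam hT.pd (id : V → V) Unit m
  have := Ex_mix (tri_pr hT (ok_rz (ok_rz hZ h) h')) b1 (H := sG T id Unit m fun _ _ => 25)
    (PosDef.of_dotProduct_mulVec_pos ((herm_sG hT.pd _).sub b1.1) fun x hx => by
      have h1 := hG.dotProduct_mulVec_pos hx
      have h2 := b2 x
      have h3 := qq_sG_const (T := T) (cl := (id : V → V)) (S := Unit) (m := m) 25 x
      simp only [qq, star_trivial, sub_mulVec, dotProduct_sub] at h1 h2 h3 ⊢
      linarith)
    (f := fun z => F (rl h (rl h' z))) (fun _ => hF _) (a := 0) (η := η) fun c => by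
      have := H c
      rw [Ev_univ] at this
      rw [sub_zero]
      exact this
  rwa [sub_zero] at this

end

end Vale.Agent.P057SM
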