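import Vale.Agent.P057SM.Rfl
import Vale.Agent.P057DP.Box

/-!
The doubled cube: embeddings of the labels, the exchange of the two copies of a vertex.
-/

set_option linter.all false

open Matrix Finset
open Vale.Agent.P267.H775 Vale.Agent.P057G Vale.Agent.P057PC Vale.Agent.P057TP Vale.Agent.P057ST
open Vale.Agent.P057GH Vale.Agent.P057DP Vale.Agent.P057RH Vale.Agent.P057EN

namespace Vale.Agent.P057SM

noncomputable section

variable {T : Tow} {C W : Type} [DecidableEq W] {cl : W → C} {m s : ℕ} {N : ℝ}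

/-- the copy of `W` that uses the vertex `(w, c)` -/
def jc (w : W) (c : Bool) (v : W) : W × Bool := (v, if v = w then c else false)

theorem jc_inj (w : W) (c : Bool) : (jc w c).Injective := fun _ _ e => congrArg Prod.fst e

theorem mem_jc {w : W} {c d : Bool} {A : Finset W} :
    (w, d) ∈ A.image (jc w c) ↔ w ∈ A ∧ d = c := by
  simp only [mem_image, jc, Prod.mk.injEq]
  exact ⟨fun ⟨v, a, b, e⟩ => by subst b; exact ⟨a, by simpa using e.symm⟩,
    fun ⟨a, b⟩ => ⟨w, a, rfl, by simp [b]⟩⟩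

theorem not_jc {w : W} {c : Bool} {A : Finset W} : (w, !c) ∉ A.image (jc w c) := fun h => by
  simpa using (mem_jc.1 h).2

/-- the exchange of the two copies of `w` -/
def sw2 (w : W) (v : W × Bool) : W × Bool := if v.1 = w then (v.1, !v.2) else v

theorem sw2_fst (w : W) (v : W × Bool) : (sw2 w v).1 = v.1 := by
  unfold sw2; split_ifs <;> rfl

theorem sw2_sw2 (w : W) : Function.Involutive (sw2 w) := fun v => by
  by_cases e : v.1 = w <;> simp [sw2, e]
  rw [← e]

theorem sw2_jc (w : W) (c : Bool) (v : W) : sw2 w (jc w c v) = jc w (!c) v := by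
  by_cases e : v = w <;> simp [sw2, jc, e]

theorem fl_jc {w : W} (c : Bool) {A : Finset W} (h : w ∈ A) :
    fl (w, !c) (fl (w, c) (A.image (jc w c))) = A.image (jc w !c) := by
  ext ⟨v, d⟩
  by_cases e : v = w
  · subst e
    cases c <;> cases d <;> simp [mem_fl, mem_jc, h, -mem_image]
  · simp only [mem_fl, Prod.mk.injEq, e, false_and, if_false, mem_image, jc]
    refine exists_congr fun u => and_congr_right fun _ => and_congr_right fun k => ?_
    simp [k, e]

/-- the labels on a copy of `W` -/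
def em (w : W) (c : Bool) (l : Lb T cl Unit m) : LI T (W × Bool) m :=
  ⟨(l.cd, l.fc.image (jc w c), l.bs), l.2.1, Set.injOn_id _, by
    rw [card_image_of_injective _ (jc_inj w c)]; exact l.2.2.2⟩

theorem em_fc (w : W) (c : Bool) (l : Lb T cl Unit m) : (em w c l).fc = l.fc.image (jc w c) := rfl

variable [Fintype W]

theorem em_inj (w : W) (c : Bool) : (em w c : Lb T cl Unit m → _).Injective := fun l l' e =>
  lb_ext (congrArg Lb.cd e :) (image_injective (jc_inj w c) (congrArg Lb.fc e)) (congrArg Lb.bs e :)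

theorem mem_em {w : W} {c : Bool} {l : LI T (W × Bool) m} {B : Finset W} (hB : Set.InjOn cl B)
    (h : l.fc ⊆ B.image (jc w c)) : l ∈ Set.range (em (cl := cl) w c) := by
  obtain ⟨A, h1, hA⟩ := subset_image_iff.1 h
  refine ⟨⟨(l.cd, A, l.bs), l.2.1, hB.mono h1, ?_⟩, lb_ext rfl hA rfl⟩
  have := l.2.2.2
  change l.bs.elim (l.fc.card = _) (fun _ => l.fc.card < _) at this
  rwa [← hA, card_image_of_injective _ (jc_inj w c)] at this

theorem pt_em (w : W) (c : Bool) {R : Type} [AddCommMonoid R] (x : LI T (W × Bool) m → R)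
    (o : Option Unit) {B : Finset W} (hB : Set.InjOn cl B) :
    pt (x ∘ em (cl := cl) w c) o B = pt x o (B.image (jc w c)) := by
  funext a
  refine Fintype.sum_of_injective _ (em_inj w c) _ _
    (fun l hl => if_neg fun e => hl (mem_em hB e.2.1)) fun l => ?_
  refine @if_congr _ _ _ (_) (_) _ _ _ _ ?_ rfl rfl
  rw [em_fc, image_subset_image_iff (jc_inj w c)]
  rfl

theorem pr_em (w : W) (c : Bool) (Z : Sys T W Unit) (x : LI T (W × Bool) m → ℝ)
    (l : Lb T cl Unit m) :
    (pb Z Prod.fst id).pr id m x (em w c l) = Z.pr cl m (x ∘ em w c) l := by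
  unfold Sys.pr Fam.alt
  rw [em_fc, powerset_image, sum_image fun _ _ _ _ e => image_injective (jc_inj w c) e]
  refine sum_congr rfl fun B hB => ?_
  rw [card_image_of_injective _ (jc_inj w c), card_image_of_injective _ (jc_inj w c), at_pb,
    pt_em w c x l.bs (l.2.2.1.mono (mem_powerset.1 hB)), image_image,
    show Prod.fst ∘ jc w c = id from rfl, image_id, Option.map_id_apply]
  · rfl
  · rintro _ x _ y e
    obtain ⟨u, -, rfl⟩ := mem_image.1 x
    obtain ⟨v, -, rfl⟩ := mem_image.1 y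
    rw [show u = v from e]

theorem Ev_em (w : W) (c : Bool) (Z : Sys T W Unit) (f : (Lb T cl Unit m → ℤ) → ℂ) :
    Ev (cub (pb Z Prod.fst id) id m (fun _ _ => 1) 0) (univ.image (em (cl := cl) w c))
      (fun z => f (z ∘ em w c)) = ∑' z, (Z.w cl m z : ℂ) * f z := by
  rw [Ev_image (S := cub Z cl m (fun _ _ => 1) 0) (em_inj w c) (fun l _ l' _ => ?_)
    (fun z l _ => congrArg (· + 0) (pr_em w c Z z l)), Ev_univ]
  · have e : (cub Z cl m (fun _ _ => 1) 0).G = Gam T cl Unit m := by
      ext; exact one_mul _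
    rw [e]
    exact tsum_congr fun z => by simp only [P057DP.cub, add_zero]; rfl
  · change 1 * Gam T id Unit m _ _ = 1 * Gam T cl Unit m _ _
    refine congrArg _ (@if_congr _ _ _ (_) (_) _ _ _ _ ?_ rfl rfl)
    rw [em_fc, em_fc, (image_injective (jc_inj w c)).eq_iff]
    rfl

theorem hsw (w : W) (v v' : W × Bool) : id (sw2 w v) = id (sw2 w v') ↔ id v = id v' :=
  (sw2_sw2 w).injective.eq_iff

/-- the exchange on the labels -/
def tw (w : W) : LI T (W × Bool) m → LI T (W × Bool) m := lift (hsw w) id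

theorem tw_em (w : W) (c : Bool) (l : Lb T cl Unit m) : tw w (em w c l) = em w (!c) l :=
  lb_ext rfl (by
    rw [tw, lift_fc, em_fc, em_fc, image_image]
    exact image_congr fun v _ => sw2_jc w c v) (Option.map_id_apply ..)

/-- the two copies of `w` -/
def Dw (w : W) (v : (W × Bool) ⊕ Unit) : Prop := ∃ c, v = Sum.inl (w, c)

theorem flip (Z : Sys T W Unit) (w : W) :
    Flip (cub (pb Z Prod.fst id) id m (fun _ _ => 1) 0) (Dw w) (Sum.elim Prod.snd fun _ => false)
      (tw w) (Sum.map (sw2 w) id) where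
  inv l := lb_ext rfl (by
    rw [tw, lift_fc, lift_fc, image_image, (sw2_sw2 w).comp_self, image_id])
    (by simp [tw, lift_bs])
  pinv v := by cases v <;> simp [sw2_sw2 w _]
  fc l := by
    ext v
    rcases v with v | v <;> simp [P057DP.cub, tw, lift_fc, lift_bs, -Prod.exists]
    exact ⟨fun h => ⟨v, h⟩, fun ⟨_, h⟩ => h⟩
  on := by rintro _ ⟨c, rfl⟩; exact ⟨⟨!c, by simp [sw2]⟩, by simp [sw2]⟩
  off := by
    rintro (v | v) h
    · exact congrArg Sum.inl (if_neg fun e => h ⟨v.2, by rw [← e]⟩)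
    · rfl
  fix l h := lb_ext rfl (by
    rw [tw, lift_fc]
    exact (image_congr (g := id) fun v hv =>
      if_neg fun e => h _ (inl_mem_cub.2 hv) ⟨v.2, by rw [← e]⟩).trans image_id)
    (Option.map_id_apply ..)
  gr l l' := congrArg (1 * ·)
    (Gam_lift (hsw w) (sw2_sw2 w).injective Function.injective_id l l')
  ce z l := by
    refine congrArg (· + 0) ((pr_lift (hsw w) (sw2_sw2 w).injective Function.injective_id
      (pb Z Prod.fst id) z l).symm.trans (pr_ext (fun B _ => ?_) _))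
    rw [at_pb _ _ _ (sw2_sw2 w).injective.injOn, Option.map_id_apply]
    have e : (evA (B.image (sw2 w))).comp (sb (fb ℝ Prod.fst)) =
        (evA B).comp (sb (fb ℝ (Prod.fst : W × Bool → W))) := by
      refine MvPolynomial.ringHom_ext (fun r => by simp [sb_C, evA_C]) fun x => ?_
      cases x with
      | none => simp [sb_none, evA_none]
      | some v =>
        simp only [RingHom.comp_apply, sb_some, fb, map_sum, evA_some]
        refine sum_nbij' (sw2 w) (sw2 w) (by simp [sw2_fst]) (by simp [sw2_fst])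
          (fun u _ => sw2_sw2 w u) (fun u _ => sw2_sw2 w u) fun u _ => if_congr ?_ rfl rfl
        conv_lhs => rw [← sw2_sw2 w u]
        exact (sw2_sw2 w).injective.mem_finset_image
    simp only [Fam.at', pb, fsb, MvPolynomial.map_map, e]

theorem cq_em (w : W) (c : Bool) : Cq (univ.image (em (T := T) (cl := cl) (m := m) w c)) := by
  intro l hl l' h _
  obtain ⟨k, -, rfl⟩ := mem_image.1 hl
  obtain ⟨j, rfl⟩ := mem_em k.2.2.1 h
  exact mem_image_of_mem _ (mem_univ j)

theorem lf_one (hT : T.Ok s N) {Z : Sys T W Unit} (hZ : Z.Ok) {d n : ℕ} {Λ η : ℝ}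
    (hd : m ≤ d + 1) (hL : T.tw.LF d n Λ η) (hn : Fintype.card W + 1 ≤ n) (hΛ : 4 ≤ Λ) :
    Lf (cub Z cl m (fun _ _ => 1) 0) η := fun q hq => by
  rw [mass_ms]
  refine fine_pz hT hZ (cq_iff.1 hq) hd hL hn (by linarith) _ _
    (posDef_blk (pd_sG hT.pd fun _ _ => one_pos) q) fun v => ?_
  refine (qq_blk_const 1 v).trans_le ((mul_le_mul_of_nonneg_right ?_ ?_).trans_eq
    (qq_smul_mat ..).symm)
  swap
  · exact qq_nonneg (posDef_blk (pd_Gam hT.pd cl Unit m) q).posSemidef v
  rw [Fintype.card_unit, le_div_iff₀ (by positivity)]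
  push_cast
  linarith

/-- Cauchy-Schwarz in `w`, insertion, reflection in both copies of `w`, mixture -/
theorem cs_refl (hT : T.Ok s N) {Z : Sys T W Unit} (hZ : Z.Ok) (w : W) {d n : ℕ} {Λ η : ℝ}
    (hd : m ≤ d + 1) (hL : T.tw.LF d n Λ η) (hn : 2 * Fintype.card W + 1 ≤ n) (hΛ : 4 ≤ Λ)
    (hη : η ≤ 1) {a g : (Lb T cl Unit m → ℤ) → ℂ} (ha : ∀ z, ‖a z‖ ≤ 1) (hg : ∀ z, ‖g z‖ ≤ 1)
    (da : ∀ z z', (∀ l, w ∉ l.fc → z l = z' l) → a z = a z') {β : ℝ}
    (H : ∀ x₀, ‖Ev (cub (rz (rz (pb Z Prod.fst id) (w, false)) (w, true)) id m (fun _ _ => 25) x₀)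
      univ fun z => (starRingEnd ℂ) (g (rl (w, false) (rl (w, true) z) ∘ em w false)) *
        g (rl (w, true) (rl (w, false) z) ∘ em w true)‖ ≤ β) :
    ‖∑' z, (Z.w cl m z : ℂ) * (a z * g z)‖ ^ 2 ≤ 2 * β := by
  have hZ2 := ok_pb hZ (Prod.fst : W × Bool → W) id
  have f := flip (m := m) Z w
  have hq : Dc (cub (pb Z Prod.fst id) id m (fun _ _ => 1) 0)
    (univ.image (em (cl := cl) w false)) := cq_iff.2 (cq_em w false)
  have dg : Dp (univ.image (em (cl := cl) w false)) fun z : LI T (W × Bool) m → ℤ =>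
      g (z ∘ em w false) := fun z z' h =>
    congrArg g (funext fun l => h _ (mem_image_of_mem _ (mem_univ l)))
  have h1 := f.cs (lo_cub hT hZ2 fun _ _ => one_pos) hq
    (fun l hl v hv ⟨c, e⟩ => by
      obtain ⟨k, -, rfl⟩ := mem_image.1 hl
      subst e
      exact (mem_jc.1 (inl_mem_cub.1 hv)).2)
    (lf_one hT hZ2 hd hL (by simpa [mul_comm] using hn) hΛ) hη
    (a := fun z => a (z ∘ em w false)) (fun _ => ha _) (fun _ => hg _)
    (fun z z' h => da _ _ fun l hl => h _ (mem_av.2 ⟨mem_image_of_mem _ (mem_univ l), by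
      rintro _ hv ⟨c, rfl⟩
      exact hl (mem_jc.1 (inl_mem_cub.1 hv)).1⟩)) dg
  rw [Ev_em w false Z fun z => a z * g z] at h1
  refine h1.trans (mul_le_mul_of_nonneg_left (two_refl hT hZ2 (w, false) (w, true)
    (cq_iff.1 (f.dc hq)) (D := 1) (fun _ => norm_cm_le (hg _) (hg _))
    ((dp_db dg).map₂ (f.dp dg) fun x y => (starRingEnd ℂ) x * y) fun x₀ => ?_) (by norm_num))
  refine le_of_eq_of_le ?_ (H x₀)
  congr 2
  funext z
  rw [rl_comm (w, true)]
  congr 2
  funext l
  exact congrArg _ (tw_em w false l)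

end

end Vale.Agent.P057SM
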