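import Vale.Agent.P057SM.Emb
import Vale.Agent.P057SY.Plan

/-!
First half of the symmetry argument: copy of a vertex, reflection of the square.
-/

set_option linter.all false

open Matrix Finset
open Vale.Agent.P267.H775 Vale.Agent.P057G Vale.Agent.P057PC Vale.Agent.P057TP Vale.Agent.P057ST
open Vale.Agent.P057GH Vale.Agent.P057DP Vale.Agent.P057RH Vale.Agent.P057EN Vale.Agent.P057SY

namespace Vale.Agent.P057SM

noncomputable section

variable {T : Tow} {C W E : Type} [Fintype W] [DecidableEq W] {cl : W → C} {m b : ℕ}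

theorem none_fo {l : Lb T cl Unit m} : none ∈ fo l ↔ l.bs ≠ none := by
  unfold fo; split_ifs with h <;> simp [h]

theorem sn_fo (w : W) (c : Bool) (l : Lb T cl Unit m) :
    (sn w (fo l) : ℝ) = if (w, c) ∈ l.fc.image (jc w c) then -1 else 1 := by
  have : some w ∈ fo l ↔ w ∈ l.fc := by unfold fo; split_ifs <;> simp
  simp only [sn, this, mem_jc, and_true]
  split_ifs <;> simp

theorem img_fo (w : W) (c : Bool) (l : Lb T cl Unit m) : (fo l).image (rv w c) =
    if l.bs = none then l.fc.image (jc w c) else insert (w, !c) (l.fc.image (jc w c)) := by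
  unfold fo
  split_ifs
  · rw [image_image]; rfl
  · rw [image_insert, image_image]; rfl

theorem pl_tot (w : W) (c : Bool) (x : LI T (W × Bool) m → ℝ) {l : Lb T cl Unit m}
    (h : ((fo l).image (rv w c)).card = T.lv l.cd) :
    pl cl w c x l = tot x () l.cd ((fo l).image (rv w c)) := by
  refine sum_congr rfl fun k _ => @if_congr _ _ _ (_) (_) _ _ _ _
    ⟨fun e => ⟨e.2.1, e.2.2, bs_u k⟩, fun e => ⟨(bs_u k).resolve_right fun n => ?_, e.1, e.2.1⟩⟩
    rfl rfl
  have := k.card_lt n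
  rw [e.1, e.2.1] at this
  omega

theorem card_jc (w : W) (c : Bool) (A : Finset W) : (A.image (jc w c)).card = A.card :=
  card_image_of_injective _ (jc_inj w c)

theorem rl_two (w : W) (c : Bool) (x : LI T (W × Bool) m → ℝ) {l : Lb T cl Unit m} (h : l.Pure) :
    rl (w, c) (rl (w, !c) x) (em w c l) = rl (w, c) x (em w c l) +
      sn w (fo l) * tot x () l.cd (insert (w, !c) (l.fc.image (jc w c))) := by
  have h1 : (w, !c) ∉ insert (w, c) (l.fc.image (jc w c)) := by simp [not_jc, -mem_image]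
  rw [rl, rl, rl, sn_fo w c, tot_rl, em_fc, if_neg not_jc, if_neg h1]
  split_ifs with k
  · change -(_ + tot x () l.cd _) = _
    ring
  · rw [tot_big (A := insert (w, !c) (insert (w, c) _))]
    · change _ + tot x () l.cd _ + _ = _
      ring
    · rw [card_insert_of_notMem h1, card_insert_of_notMem k, card_jc]
      change T.lv l.cd < _
      rcases h with h | h
      · have := l.card_eq h; omega
      · omega

/-- the labels read on a copy after both reflections -/
def zr (cl : W → C) (w : W) (c : Bool) (z : LI T (W × Bool) m → ℤ) : Lb T cl Unit m → ℤ :=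
  rl (w, c) (rl (w, !c) z) ∘ em w c

/-- the signed reading of the pure labels -/
abbrev Pc (cl : W → C) (w : W) (c : Bool) (z : LI T (W × Bool) m → ℤ) (l : Lb T cl Unit m) : ℝ :=
  sn w (fo l) * pl cl w c (toR z) l

theorem zr_cast (w : W) (c : Bool) (z : LI T (W × Bool) m → ℤ) (l : Lb T cl Unit m) :
    (zr cl w c z l : ℝ) = rl (w, c) (rl (w, !c) (toR z)) (em w c l) := by
  rw [← toR_rl, ← toR_rl]; rfl

theorem pc_none (w : W) (c : Bool) (z : LI T (W × Bool) m → ℤ) {l : Lb T cl Unit m}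
    (h : l.bs = none) : Pc cl w c z l = sn w (fo l) * z (em w c l) := by
  rw [Pc, pl_tot w c _ (by rw [img_fo, if_pos h, card_jc, l.card_eq h]), img_fo, if_pos h]
  exact congrArg _ (tot_lab (toR z) (bs_u (em w c l)))

theorem zr_none (w : W) (c : Bool) (z : LI T (W × Bool) m → ℤ) {l : Lb T cl Unit m}
    (h : l.bs = none) : (zr cl w c z l : ℝ) = Pc cl w c z l := by
  have e : ∀ v ∉ l.fc.image (jc w c),
      tot (toR z) () l.cd (insert v (l.fc.image (jc w c))) = 0 := fun v k =>
    tot_big _ _ (by rw [card_insert_of_notMem k, card_jc, l.card_eq h]; omega)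
  rw [zr_cast, rl_two w c _ (Or.inl h), pc_none w c z h, e _ not_jc, rl, sn_fo w c, em_fc]
  split_ifs with k
  · simp
  · change _ + tot (toR z) () l.cd _ + _ = _
    rw [e _ k]; simp

theorem zr_some (w : W) (c : Bool) (z : LI T (W × Bool) m → ℤ) {l : Lb T cl Unit m}
    (h : l.Pure) (k : l.bs ≠ none) :
    (zr cl w c z l : ℝ) = Pc cl w c z l + rl (w, c) (toR z) (em w c l) := by
  rw [zr_cast, rl_two w c _ h, Pc, pl_tot w c _ (by
    rw [img_fo, if_neg k, card_insert_of_notMem not_jc, card_jc, h.resolve_left k]), img_fo,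
    if_neg k, add_comm]

variable [Fintype E] [DecidableEq E] {X : Xt (Option W) (Lb T cl Unit m) E}
  {φ : (Lb T cl Unit m ⊕ E → ℝ) → ℝ}

/-- the point of the terms that do not meet the other copy -/
def Uc (X : Xt (Option W) (Lb T cl Unit m) E) (w : W) (c : Bool) (z : LI T (W × Bool) m → ℤ)
    (n : E → ℤ) : Lb T cl Unit m ⊕ E → ℝ :=
  mix ((xt (sk T cl m) X).st none) (Sum.elim (fun l => rl (w, c) (toR z) (em w c l)) 0)
    (Sum.elim (Pc cl w c z) (toR n))

theorem inl_st {l : Lb T cl Unit m} :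
    Sum.inl l ∈ (xt (sk T cl m) X).st none ↔ l.bs ≠ none := (MS.mem_st _).trans none_fo

theorem inr_st (hX : ∀ e, none ∉ X.fc e) (e : E) : Sum.inr e ∉ (xt (sk T cl m) X).st none :=
  fun h => hX e ((MS.mem_st _).1 h)

theorem phi_split (hX : ∀ e, none ∉ X.fc e) (hφ : Dg X b φ) (w : W) (c : Bool)
    (z : LI T (W × Bool) m → ℤ) (n : E → ℤ) : φ (jn (zr cl w c z) n) =
      φ (Sum.elim (Pc cl w c z) (toR n)) + φ (Uc X w c z n) := by
  have := (hφ.lin (Sum.elim (Pc cl w c z) (toR n))).map_add (Sum.elim (Pc cl w c z) (toR n))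
    (Sum.elim (fun l => rl (w, c) (toR z) (em w c l)) 0)
  rw [mix_self] at this
  refine (hφ.on _ _ (fun l hl => ?_) fun e => ?_).trans this
  · by_cases k : l.bs = none
    · rw [mix_neg _ _ fun n => inl_st.1 n k]; exact zr_none w c z k
    · rw [mix_pos _ _ (inl_st.2 k)]; exact zr_some w c z hl k
  · rw [mix_neg _ _ (inr_st hX e)]; rfl

theorem pc_dep {w : W} {c : Bool} {z z' : LI T (W × Bool) m → ℤ}
    (h : ∀ l, (w, !c) ∉ l.fc → z l = z' l) {l : Lb T cl Unit m} (k : l.bs = none) :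
    Pc cl w c z l = Pc cl w c z' l := by
  rw [pc_none w c z k, pc_none w c z' k, h _ not_jc]

theorem zr_dep {w : W} {c : Bool} {z z' : LI T (W × Bool) m → ℤ}
    (h : ∀ l, (w, !c) ∉ l.fc → z l = z' l) (l : Lb T cl Unit m) (k : l.bs = none) :
    zr cl w c z l = zr cl w c z' l := by
  have := pc_dep h k
  rw [← zr_none w c z k, ← zr_none w c z' k] at this
  exact_mod_cast this

theorem uc_dep (hX : ∀ e, none ∉ X.fc e) {w : W} {c : Bool} {z z' : LI T (W × Bool) m → ℤ}
    (h : ∀ l, (w, !c) ∉ l.fc → z l = z' l) (n : E → ℤ) : Uc X w c z n = Uc X w c z' n := by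
  funext i
  unfold Uc
  rcases i with l | e
  · by_cases k : l.bs = none
    · rw [mix_neg _ _ fun n => inl_st.1 n k, mix_neg _ _ fun n => inl_st.1 n k]
      exact pc_dep h k
    · rw [mix_pos _ _ (inl_st.2 k), mix_pos _ _ (inl_st.2 k)]
      simp only [Sum.elim_inl, rl, toR_apply, h (em w c l) not_jc]
      congr 2
      refine sum_congr rfl fun j _ => ?_
      split_ifs with a
      · rw [toR_apply, toR_apply, h j (by rw [a.2.1, em_fc]; simp [not_jc, -mem_image])]
      · rfl
  · rw [mix_neg _ _ (inr_st hX e), mix_neg _ _ (inr_st hX e)]; rfl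

theorem pt_zr {w : W} (c : Bool) (z : LI T (W × Bool) m → ℤ) {A : Finset W} (h : A ∈ cells cl)
    (k : w ∈ A) : pt (zr cl w c z) (some ()) A = pt z (some ()) (A.image (jc w !c)) := by
  classical
  rw [zr, pt_em w c _ _ (mem_filter.1 h).2.1, pt_rl, pt_rl, fl_jc c k]

theorem norm_pr {α : Type} (s : Finset α) {g : α → ℝ} (h : ∀ a, |g a| ≤ 1) :
    ‖((∏ a ∈ s, g a : ℝ) : ℂ)‖ ≤ 1 := by
  rw [Complex.norm_real, Real.norm_eq_abs, abs_prod]
  exact prod_le_one (fun _ _ => abs_nonneg _) fun a _ => h a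

theorem norm_m {x y : ℂ} (hx : ‖x‖ ≤ 1) (hy : ‖y‖ ≤ 1) : ‖x * y‖ ≤ 1 := by
  rw [norm_mul]; exact mul_le_one₀ hx (norm_nonneg _) hy

theorem sym1 (s : ℕ) : SYM1 s := by
  refine ⟨3, fun N T C W E _ _ _ _ cl m b Z X n φ Y w hT hZ hX hf hφ hn hW hY hL
    ⟨β, g, b1, b2, b3, b4, b5⟩ => ?_⟩
  classical
  push_cast at hY
  let cj : Bool → ℂ → ℂ := fun c => cond c id (starRingEnd ℂ)
  have cj1 : ∀ c x, ‖cj c x‖ = ‖x‖ := fun c x => by cases c <;> simp [cj]
  let q := (cells cl).filter (w ∈ ·)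
  let A : Bool → (LI T (W × Bool) m → ℤ) → ℂ := fun c z =>
    cj c (β (zr cl w c z) * ee (φ (Uc X w c z (n (zr cl w c z))))) *
      (∏ B ∈ q, g B (pt z (some ()) (B.image (jc w c))) : ℝ)
  by_contra H
  have h3 : 3 * Y ≤ Y ^ 3 := by nlinarith [mul_le_mul hY hY (by norm_num) (by linarith)]
  have h1 := cs_refl hT hZ w (by omega : m ≤ m - 1 + 1) hL (Nat.le_floor (by push_cast; linarith))
    (by linarith [Real.add_one_le_exp (Y ^ 3)]) (Real.exp_le_one_iff.2 (by linarith))
    (a := fun z => (∏ B ∈ (cells cl).filter (w ∉ ·), g B (pt z (some ()) B) : ℝ))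
    (g := fun z => β z * ((∏ B ∈ q, g B (pt z (some ()) B) : ℝ) * ee (φ (jn z (n z)))))
    (fun _ => norm_pr _ fun _ => b4 _ _)
    (fun _ => norm_m (b2 _) (norm_m (norm_pr _ fun _ => b4 _ _) (norm_ee _).le))
    (fun z z' h => congrArg _ (prod_congr rfl fun B hB => congrArg _ (funext fun a =>
      pt_congr fun l _ k _ => h l fun u => (mem_filter.1 hB).2 (k u))))
    (β := Real.exp (-(3 * Y))) fun x₀ => le_of_not_gt fun k => H ⟨_, x₀, A,
      fun c z => n (zr cl w c z), ok_rz (ok_rz (ok_pb hZ Prod.fst id) (w, false)) (w, true),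
      fun c z => norm_m ((cj1 _ _).trans_le (norm_m (b2 _) (norm_ee _).le))
        (norm_pr _ fun _ => b4 _ _), fun c z z' h => ?_, fun c z h => ?_, k.le.trans_eq ?_⟩
  · have e : ∀ z : Lb T cl Unit m → ℤ, β z * ((∏ c ∈ cells cl, g c (pt z (some ()) c) : ℝ) *
        ee (φ (jn z (n z)))) = (∏ B ∈ (cells cl).filter (w ∉ ·), g B (pt z (some ()) B) : ℝ) *
        (β z * ((∏ B ∈ q, g B (pt z (some ()) B) : ℝ) * ee (φ (jn z (n z))))) := fun z => by
      rw [← prod_filter_mul_prod_filter_not (cells cl) (w ∈ ·), Complex.ofReal_mul]; ring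
    simp only [e] at b5
    have h2 := (pow_le_pow_left₀ (Real.exp_pos _).le b5 2).trans h1
    rw [← Real.exp_nat_mul, show ((2 : ℕ) : ℝ) * -Y = Y + -(3 * Y) by push_cast; ring,
      Real.exp_add] at h2
    have := le_of_mul_le_mul_right h2 (Real.exp_pos _)
    linarith [Real.add_one_le_exp Y]
  · have e := hn _ _ (zr_dep (cl := cl) h)
    refine ⟨?_, e⟩
    simp only [A, e, b1 _ _ (zr_dep h), uc_dep hf h]
    congr 2
    exact prod_congr rfl fun B _ => congrArg _ (funext fun a =>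
      pt_congr fun l _ k _ => h l fun u => not_jc (k u))
  · have h2 : β (zr cl w c z) ≠ 0 := fun e => h (by cases c <;> simp [A, cj, e])
    refine le_of_eq_of_le ?_ (b3 _ h2)
    congr 2
    funext e
    exact hX.loc e _ _ (fun l hl => (zr_none w c z (by_contra fun k =>
      hf e (hl (none_fo.2 k)))).symm) fun _ _ _ => rfl
  · congr 2
    funext z
    have e : ∀ c, ∏ B ∈ q, g B (pt (zr cl w c z) (some ()) B) =
        ∏ B ∈ q, g B (pt z (some ()) (B.image (jc w !c))) := fun c =>
      prod_congr rfl fun B hB => by rw [pt_zr c z (mem_filter.1 hB).1 (mem_filter.1 hB).2]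
    change (starRingEnd ℂ) (β (zr cl w false z) * ((∏ B ∈ q, g B (pt (zr cl w false z) _ B) : ℝ) *
      ee (φ (jn (zr cl w false z) (n (zr cl w false z)))))) * (β (zr cl w true z) *
      ((∏ B ∈ q, g B (pt (zr cl w true z) _ B) : ℝ) *
        ee (φ (jn (zr cl w true z) (n (zr cl w true z)))))) = _
    simp only [e, phi_split hf hφ, A, cj, cond, id, sub_eq_add_neg, ee_add, ee_neg, map_mul,
      Complex.conj_ofReal, Bool.not_true, Bool.not_false]
    ring

end

end Vale.Agent.P057SM
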